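import Mathlib
import Vale.Agent.P109.H787.Tower

/-!
# P109, block [C] (helper462): the tower of word spaces (definitions and basic facts)

`Sched` = the parameters `κ j`, `lam j`.  `W j` = the set of level `j` words (`2 ^ κ j` of them).
`split : W j ≃ P j × Y j`, `merge : W (j+1) ≃ (P j × P j) × Y j`.
A relation at level `j` is a map `Ψ : P j → P j → Y j`; `left`, `right : W (j+1) → W j` are the two
halves of a word of level `j+1`; the pairs `(left w, right w)` run through
`G j = {(w, w') | y(w') = y(w) + Ψ (x w) (x w')}`, each exactly once.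
-/

namespace Vale.Agent.P109.H462

open Finset

/-- The parameters of the construction. -/
structure Sched where
  /-- `W j` has `2 ^ κ j` elements -/
  κ : ℕ → ℕ
  /-- `Y j` has `2 ^ lam j` elements -/
  lam : ℕ → ℕ
  lam_le : ∀ j, lam j ≤ κ j
  κ_succ : ∀ j, κ (j + 1) = 2 * κ j - lam j

namespace Sched

variable (s : Sched)

/-- Words of level `j`. -/
abbrev W (j : ℕ) : Type := Fin (2 ^ s.κ j)
/-- First coordinate of a word of level `j`. -/
abbrev P (j : ℕ) : Type := Fin (2 ^ (s.κ j - s.lam j))
/-- Second coordinate of a word of level `j` (a group). -/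
abbrev Y (j : ℕ) : Type := ZMod (2 ^ s.lam j)

instance (j : ℕ) : NeZero (2 ^ s.lam j) := ⟨by positivity⟩

/-- The (fixed, arbitrary) identification `W j = P j × Y j`. -/
noncomputable def split (j : ℕ) : s.W j ≃ s.P j × s.Y j :=
  Fintype.equivOfCardEq (by
    simp only [Fintype.card_fin, Fintype.card_prod, ZMod.card]
    rw [← pow_add, Nat.sub_add_cancel (s.lam_le j)])

/-- The (fixed, arbitrary) identification of `W (j+1)` with `P j × P j × Y j`. -/
noncomputable def merge (j : ℕ) : s.W (j + 1) ≃ (s.P j × s.P j) × s.Y j :=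
  Fintype.equivOfCardEq (by
    simp only [Fintype.card_fin, Fintype.card_prod, ZMod.card]
    rw [← pow_add, ← pow_add, s.κ_succ]
    congr 1
    have := s.lam_le j
    omega)

/-- `x`-coordinate of a word -/
noncomputable def xc (j : ℕ) (w : s.W j) : s.P j := (s.split j w).1
/-- `y`-coordinate of a word -/
noncomputable def yc (j : ℕ) (w : s.W j) : s.Y j := (s.split j w).2

/-- A relation at level `j`. -/
abbrev Rel (j : ℕ) : Type := s.P j → s.P j → s.Y j

/-- A choice of the relations at all levels. -/
abbrev Rels : Type := ∀ j, s.Rel j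

/-- The left half of a word. -/
noncomputable def left (j : ℕ) (w : s.W (j + 1)) : s.W j :=
  (s.split j).symm ((s.merge j w).1.1, (s.merge j w).2)

/-- The right half of a word. -/
noncomputable def rightOf (j : ℕ) (Ψ : s.Rel j) (w : s.W (j + 1)) : s.W j :=
  (s.split j).symm ((s.merge j w).1.2, (s.merge j w).2 + Ψ (s.merge j w).1.1 (s.merge j w).1.2)

/-- The relation `G` at level `j` defined by `Ψ`. -/
def GRel (j : ℕ) (Ψ : s.Rel j) (w w' : s.W j) : Prop :=
  s.yc j w' = s.yc j w + Ψ (s.xc j w) (s.xc j w')

noncomputable instance (j : ℕ) (Ψ : s.Rel j) (w w' : s.W j) : Decidable (s.GRel j Ψ w w') :=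
  inferInstanceAs (Decidable (_ = _))

/-- The set of admissible pairs at level `j`. -/
noncomputable def G (j : ℕ) (Ψ : s.Rel j) : Finset (s.W j × s.W j) :=
  univ.filter (fun p => s.GRel j Ψ p.1 p.2)

variable {s}

@[simp] theorem mem_G {j : ℕ} {Ψ : s.Rel j} {p : s.W j × s.W j} :
    p ∈ s.G j Ψ ↔ s.GRel j Ψ p.1 p.2 := by simp [G]

@[simp] theorem xc_symm (j : ℕ) (x : s.P j) (y : s.Y j) : s.xc j ((s.split j).symm (x, y)) = x := by
  simp [xc]
@[simp] theorem yc_symm (j : ℕ) (x : s.P j) (y : s.Y j) : s.yc j ((s.split j).symm (x, y)) = y := by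
  simp [yc]

theorem gRel_halves (j : ℕ) (Ψ : s.Rel j) (w : s.W (j + 1)) :
    s.GRel j Ψ (s.left j w) (s.rightOf j Ψ w) := by
  simp [GRel, left, rightOf]

variable (s) in
/-- Words of level `j+1` are exactly the admissible pairs of words of level `j`. -/
noncomputable def pairEquiv (j : ℕ) (Ψ : s.Rel j) : s.W (j + 1) ≃ {p : s.W j × s.W j // p ∈ s.G j Ψ} where
  toFun w := ⟨(s.left j w, s.rightOf j Ψ w), by simpa using gRel_halves j Ψ w⟩
  invFun p := (s.merge j).symm ((s.xc j p.1.1, s.xc j p.1.2), s.yc j p.1.1)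
  left_inv w := by
    simp only [left, rightOf, xc_symm, yc_symm]
    exact (s.merge j).symm_apply_apply w
  right_inv p := by
    obtain ⟨⟨w, w'⟩, h⟩ := p
    have h' : s.GRel j Ψ w w' := by simpa using h
    have e1 : s.left j ((s.merge j).symm ((s.xc j w, s.xc j w'), s.yc j w)) = w := by
      simp only [left, Equiv.apply_symm_apply]
      exact (s.split j).symm_apply_apply w
    have e2 : s.rightOf j Ψ ((s.merge j).symm ((s.xc j w, s.xc j w'), s.yc j w)) = w' := by
      simp only [rightOf, Equiv.apply_symm_apply]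
      rw [← h']
      exact (s.split j).symm_apply_apply w'
    ext1
    simp only [e1, e2]

theorem halves_injective (j : ℕ) (Ψ : s.Rel j) :
    Function.Injective (fun w : s.W (j + 1) => (s.left j w, s.rightOf j Ψ w)) := by
  intro a b hab
  apply (s.pairEquiv j Ψ).injective
  exact Subtype.ext hab

theorem exists_of_gRel {j : ℕ} {Ψ : s.Rel j} {w w' : s.W j} (h : s.GRel j Ψ w w') :
    ∃ v : s.W (j + 1), s.left j v = w ∧ s.rightOf j Ψ v = w' := by
  refine ⟨(s.pairEquiv j Ψ).symm ⟨(w, w'), by simpa using h⟩, ?_⟩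
  have := (s.pairEquiv j Ψ).apply_symm_apply ⟨(w, w'), by simpa using h⟩
  have h2 := congrArg Subtype.val this
  exact ⟨congrArg Prod.fst h2, congrArg Prod.snd h2⟩

theorem sum_G {M : Type*} [AddCommMonoid M] (j : ℕ) (Ψ : s.Rel j) (f : s.W j → s.W j → M) :
    ∑ p ∈ s.G j Ψ, f p.1 p.2 = ∑ w : s.W (j + 1), f (s.left j w) (s.rightOf j Ψ w) := by
  rw [← Finset.sum_coe_sort (s.G j Ψ)]
  exact (Equiv.sum_comp (s.pairEquiv j Ψ) (fun p => f p.1.1 p.1.2)).symm

theorem card_G (j : ℕ) (Ψ : s.Rel j) : (s.G j Ψ).card = 2 ^ s.κ (j + 1) := by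
  have h : (s.G j Ψ).card = Fintype.card {p : s.W j × s.W j // p ∈ s.G j Ψ} := by simp [Fintype.card_subtype, G]
  rw [h, Fintype.card_congr (s.pairEquiv j Ψ).symm, Fintype.card_fin]

/-- Sum over admissible pairs, coordinates. -/
theorem sum_G_coord {M : Type*} [AddCommMonoid M] (j : ℕ) (Ψ : s.Rel j) (f : s.W j → s.W j → M) :
    ∑ p ∈ s.G j Ψ, f p.1 p.2 =
      ∑ x : s.P j, ∑ x' : s.P j, ∑ y : s.Y j,
        f ((s.split j).symm (x, y)) ((s.split j).symm (x', y + Ψ x x')) := by
  rw [sum_G, ← Equiv.sum_comp (s.merge j).symm, Fintype.sum_prod_type, Fintype.sum_prod_type]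
  simp [left, rightOf]

theorem card_left_eq (j : ℕ) (w : s.W j) :
    (univ.filter (fun v : s.W (j + 1) => s.left j v = w)).card = 2 ^ (s.κ j - s.lam j) := by
  classical
  have hinj : Function.Injective
      (fun x' : s.P j => (s.merge j).symm ((s.xc j w, x'), s.yc j w)) := by
    intro a b hab
    have := (s.merge j).symm.injective hab
    simpa using this
  have : (univ.filter (fun v : s.W (j + 1) => s.left j v = w)) =
      (univ : Finset (s.P j)).image
        (fun x' : s.P j => (s.merge j).symm ((s.xc j w, x'), s.yc j w)) := by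
    ext v
    simp only [mem_filter, mem_univ, true_and, mem_image]
    constructor
    · rintro rfl
      refine ⟨(s.merge j v).1.2, ?_⟩
      simp only [left, xc_symm, yc_symm]
      exact (s.merge j).symm_apply_apply v
    · rintro ⟨x', rfl⟩
      simp only [left, Equiv.apply_symm_apply]
      exact (s.split j).symm_apply_apply w
  rw [this, card_image_of_injective _ hinj, card_univ, Fintype.card_fin]

theorem card_right_eq (j : ℕ) (Ψ : s.Rel j) (w : s.W j) :
    (univ.filter (fun v : s.W (j + 1) => s.rightOf j Ψ v = w)).card = 2 ^ (s.κ j - s.lam j) := by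
  classical
  have hinj : Function.Injective
      (fun x : s.P j => (s.merge j).symm ((x, s.xc j w), s.yc j w - Ψ x (s.xc j w))) := by
    intro a b hab
    have := (s.merge j).symm.injective hab
    simp only [Prod.mk.injEq] at this
    exact this.1.1
  have : (univ.filter (fun v : s.W (j + 1) => s.rightOf j Ψ v = w)) =
      (univ : Finset (s.P j)).image
        (fun x : s.P j => (s.merge j).symm ((x, s.xc j w), s.yc j w - Ψ x (s.xc j w))) := by
    ext v
    simp only [mem_filter, mem_univ, true_and, mem_image]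
    constructor
    · rintro rfl
      refine ⟨(s.merge j v).1.1, ?_⟩
      simp only [rightOf, xc_symm, yc_symm, add_sub_cancel_right]
      exact (s.merge j).symm_apply_apply v
    · rintro ⟨x, rfl⟩
      simp only [rightOf, Equiv.apply_symm_apply, sub_add_cancel]
      exact (s.split j).symm_apply_apply w
  rw [this, card_image_of_injective _ hinj, card_univ, Fintype.card_fin]

/-! ### The tower -/

theorem card_rightPartners (j : ℕ) (Ψ : s.Rel j) (w : s.W j) :
    Nat.card {w' // s.GRel j Ψ w w'} = 2 ^ (s.κ j - s.lam j) := by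
  classical
  have e : {w' // s.GRel j Ψ w w'} ≃ s.P j :=
    { toFun := fun w' => s.xc j w'.1
      invFun := fun x => ⟨(s.split j).symm (x, s.yc j w + Ψ (s.xc j w) x), by simp [GRel]⟩
      left_inv := fun w' => by
        obtain ⟨w', h⟩ := w'
        apply Subtype.ext
        have h' : s.yc j w' = s.yc j w + Ψ (s.xc j w) (s.xc j w') := h
        simp only [← h']
        exact (s.split j).symm_apply_apply w'
      right_inv := fun x => by simp }
  rw [Nat.card_congr e, Nat.card_eq_fintype_card, Fintype.card_fin]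

theorem card_leftPartners (j : ℕ) (Ψ : s.Rel j) (w' : s.W j) :
    Nat.card {w // s.GRel j Ψ w w'} = 2 ^ (s.κ j - s.lam j) := by
  classical
  have e : {w // s.GRel j Ψ w w'} ≃ s.P j :=
    { toFun := fun w => s.xc j w.1
      invFun := fun x => ⟨(s.split j).symm (x, s.yc j w' - Ψ x (s.xc j w')), by simp [GRel]⟩
      left_inv := fun w => by
        obtain ⟨w, h⟩ := w
        apply Subtype.ext
        have h' : s.yc j w' = s.yc j w + Ψ (s.xc j w) (s.xc j w') := h
        have h'' : s.yc j w' - Ψ (s.xc j w) (s.xc j w') = s.yc j w := by rw [h']; abel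
        simp only [h'']
        exact (s.split j).symm_apply_apply w
      right_inv := fun x => by simp }
  rw [Nat.card_congr e, Nat.card_eq_fintype_card, Fintype.card_fin]

variable (s) in
/-- The tower of word spaces defined by the relations `t`. -/
noncomputable def tower (t : s.Rels) : Tower where
  W := s.W
  ne j := ⟨⟨0, by positivity⟩⟩
  p j := 2 ^ (s.κ j - s.lam j)
  G j := s.GRel j (t j)
  right j w := card_rightPartners j (t j) w
  left j w' := card_leftPartners j (t j) w'
  e j := (s.pairEquiv j (t j)).trans (Equiv.subtypeEquivRight (fun _ => mem_G))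

@[simp] theorem tower_W (t : s.Rels) (j : ℕ) : (s.tower t).W j = s.W j := rfl
@[simp] theorem tower_G (t : s.Rels) (j : ℕ) : (s.tower t).G j = s.GRel j (t j) := rfl
@[simp] theorem tower_p (t : s.Rels) (j : ℕ) : (s.tower t).p j = 2 ^ (s.κ j - s.lam j) := rfl

theorem tower_fst (t : s.Rels) (j : ℕ) (w : s.W (j + 1)) : (s.tower t).fst j w = s.left j w := rfl
theorem tower_snd (t : s.Rels) (j : ℕ) (w : s.W (j + 1)) :
    (s.tower t).snd j w = s.rightOf j (t j) w := rfl

theorem card_W (j : ℕ) : Fintype.card (s.W j) = 2 ^ s.κ j := Fintype.card_fin _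

/-! ### Letters, spelling, dependence on the relations below the level only -/

/-- The `i`-th letter of a word of level `j` (the same as `(s.tower t).letter j i w`). -/
noncomputable def letter (t : s.Rels) (j i : ℕ) (w : s.W j) : s.W 0 := (s.tower t).letter j i w

/-- The name in the alphabet `A = W 0` spelled by a level `j` word. -/
noncomputable def spell (t : s.Rels) (j : ℕ) (w : s.W j) : Fin (2 ^ j) → s.W 0 :=
  fun i => s.letter t j i w

@[simp] theorem letter_zero (t : s.Rels) (i : ℕ) (w : s.W 0) : s.letter t 0 i w = w := rfl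

theorem letter_succ (t : s.Rels) (j i : ℕ) (w : s.W (j + 1)) :
    s.letter t (j + 1) i w = if i < 2 ^ j then s.letter t j i (s.left j w)
      else s.letter t j (i - 2 ^ j) (s.rightOf j (t j) w) := rfl

theorem letter_succ_lt (t : s.Rels) {j i : ℕ} (w : s.W (j + 1)) (h : i < 2 ^ j) :
    s.letter t (j + 1) i w = s.letter t j i (s.left j w) := by
  rw [letter_succ, if_pos h]

theorem letter_succ_add (t : s.Rels) {j : ℕ} (w : s.W (j + 1)) (i : ℕ) :
    s.letter t (j + 1) (2 ^ j + i) w = s.letter t j i (s.rightOf j (t j) w) := by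
  rw [letter_succ, if_neg (by omega), Nat.add_sub_cancel_left]

theorem letter_congr {t t' : s.Rels} {j : ℕ} (h : ∀ i < j, t i = t' i) (a : ℕ) (w : s.W j) :
    s.letter t j a w = s.letter t' j a w := by
  induction j generalizing a with
  | zero => rfl
  | succ j ih =>
    have hj : t j = t' j := h j (Nat.lt_succ_self j)
    have ih' := ih (fun i hi => h i (Nat.lt_succ_of_lt hi))
    simp only [letter_succ, hj, ih']

theorem spell_congr {t t' : s.Rels} {j : ℕ} (h : ∀ i < j, t i = t' i) :
    s.spell t j = s.spell t' j := by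
  funext w i
  exact letter_congr h i w

/-! ### Mismatches and the list property -/

/-- Number of mismatches (Hamming distance) of two names. -/
def mis {n : ℕ} {A : Type*} [DecidableEq A] (u v : Fin n → A) : ℕ :=
  (univ.filter (fun i => u i ≠ v i)).card

/-- The list property at level `j` with exponent `η`: every name is close to few codewords. -/
def ListProp (t : s.Rels) (j : ℕ) (η : ℝ) : Prop :=
  ∀ (u : Fin (2 ^ j) → s.W 0) (m : ℕ),
    ((univ.filter (fun w : s.W j => mis (s.spell t j w) u ≤ m)).card : ℝ) ≤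
      (2 : ℝ) ^ ((s.κ j : ℝ) * ((m : ℝ) / 2 ^ j + η))

end Sched

end Vale.Agent.P109.H462
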