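import Mathlib
import Vale.Agent.P109.H462.Tower

/-!
# P109, block [C]: the Chernoff bound for a random relation
-/

namespace Vale.Agent.P109.H462

open Finset

/-- Exponential moments of a function of independent uniform table entries. -/
theorem sum_table_prod {P Y : Type*} [Fintype P] [DecidableEq P] [Fintype Y]
    (F : P → P → Y → ℝ) :
    ∑ Ψ : P → P → Y, ∏ x : P, ∏ x' : P, F x x' (Ψ x x') = ∏ x : P, ∏ x' : P, ∑ c : Y, F x x' c := by
  have h1 : ∀ x : P, ∏ x' : P, ∑ c : Y, F x x' c = ∑ ψ : P → Y, ∏ x' : P, F x x' (ψ x') := by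
    intro x
    rw [Finset.prod_univ_sum]
    simp [Fintype.piFinset_univ]
  simp_rw [h1]
  rw [Finset.prod_univ_sum]
  simp [Fintype.piFinset_univ]

theorem exp_le_one_add_two_mul {z : ℝ} (h0 : 0 ≤ z) (h1 : z ≤ 1) : Real.exp z ≤ 1 + 2 * z := by
  have hc : ConvexOn ℝ Set.univ Real.exp := convexOn_exp
  have := hc.2 (Set.mem_univ (0 : ℝ)) (Set.mem_univ (1 : ℝ)) (sub_nonneg.2 h1) h0 (by ring)
  simp only [smul_eq_mul, mul_zero, mul_one, zero_add, Real.exp_zero] at this
  have he : Real.exp 1 ≤ 3 := by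
    have := Real.exp_one_lt_d9
    linarith
  nlinarith [this]

/-- Chernoff bound for the sum of independent table entries, each in `[0, M]`. -/
theorem table_chernoff {P Y : Type*} [Fintype P] [DecidableEq P] [Fintype Y] [Nonempty Y]
    (Z : P → P → Y → ℝ) (M t : ℝ) (hM : 0 < M) (h0 : ∀ x x' c, 0 ≤ Z x x' c)
    (hZ : ∀ x x' c, Z x x' c ≤ M) :
    ((univ.filter (fun Ψ : P → P → Y => t ≤ ∑ x, ∑ x', Z x x' (Ψ x x'))).card : ℝ) ≤
      Fintype.card (P → P → Y) *
        Real.exp ((2 * (∑ x, ∑ x', ∑ c, Z x x' c) / Fintype.card Y - t) / M) := by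
  classical
  set q : ℝ := (Fintype.card Y : ℝ) with hq
  have hqpos : 0 < q := by
    rw [hq]; exact_mod_cast Fintype.card_pos
  set N : ℝ := (Fintype.card (P → P → Y) : ℝ) with hN
  -- Markov
  have hmarkov : ((univ.filter (fun Ψ : P → P → Y => t ≤ ∑ x, ∑ x', Z x x' (Ψ x x'))).card : ℝ) *
      Real.exp (t / M) ≤ ∑ Ψ : P → P → Y, Real.exp ((∑ x, ∑ x', Z x x' (Ψ x x')) / M) := by
    rw [← nsmul_eq_mul, ← Finset.sum_const]
    calc ∑ _Ψ ∈ univ.filter (fun Ψ : P → P → Y => t ≤ ∑ x, ∑ x', Z x x' (Ψ x x')), Real.exp (t / M)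
        ≤ ∑ Ψ ∈ univ.filter (fun Ψ : P → P → Y => t ≤ ∑ x, ∑ x', Z x x' (Ψ x x')),
            Real.exp ((∑ x, ∑ x', Z x x' (Ψ x x')) / M) := by
          apply Finset.sum_le_sum
          intro Ψ hΨ
          rw [mem_filter] at hΨ
          exact Real.exp_le_exp.2 (div_le_div_of_nonneg_right hΨ.2 hM.le)
      _ ≤ _ := Finset.sum_le_sum_of_subset_of_nonneg (filter_subset _ _)
          (fun _ _ _ => (Real.exp_pos _).le)
  -- product form
  have hprod : ∑ Ψ : P → P → Y, Real.exp ((∑ x, ∑ x', Z x x' (Ψ x x')) / M) =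
      ∏ x : P, ∏ x' : P, ∑ c : Y, Real.exp (Z x x' c / M) := by
    rw [← sum_table_prod]
    refine Finset.sum_congr rfl fun Ψ _ => ?_
    rw [Finset.sum_div, Real.exp_sum]
    refine Finset.prod_congr rfl fun x _ => ?_
    rw [Finset.sum_div, Real.exp_sum]
  have hfac : ∀ x x', ∑ c : Y, Real.exp (Z x x' c / M) ≤
      q * Real.exp (2 * (∑ c, Z x x' c) / q / M) := by
    intro x x'
    calc ∑ c : Y, Real.exp (Z x x' c / M) ≤ ∑ c : Y, (1 + 2 * (Z x x' c / M)) := by
          apply Finset.sum_le_sum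
          intro c _
          exact exp_le_one_add_two_mul (div_nonneg (h0 x x' c) hM.le)
            ((div_le_one hM).2 (hZ x x' c))
      _ = q * (1 + 2 * (∑ c, Z x x' c) / q / M) := by
          rw [Finset.sum_add_distrib, ← Finset.mul_sum, ← Finset.sum_div]
          simp only [sum_const, card_univ, nsmul_eq_mul, mul_one]
          rw [← hq]
          field_simp
      _ ≤ q * Real.exp (2 * (∑ c, Z x x' c) / q / M) := by
          apply mul_le_mul_of_nonneg_left _ hqpos.le
          have := Real.add_one_le_exp (2 * (∑ c, Z x x' c) / q / M)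
          linarith
  have hbound : ∏ x : P, ∏ x' : P, ∑ c : Y, Real.exp (Z x x' c / M) ≤
      N * Real.exp (2 * (∑ x, ∑ x', ∑ c, Z x x' c) / q / M) := by
    calc ∏ x : P, ∏ x' : P, ∑ c : Y, Real.exp (Z x x' c / M)
        ≤ ∏ x : P, ∏ x' : P, (q * Real.exp (2 * (∑ c, Z x x' c) / q / M)) := by
          apply Finset.prod_le_prod
          · intro x _
            exact Finset.prod_nonneg fun x' _ => Finset.sum_nonneg fun c _ => (Real.exp_pos _).le
          · intro x _
            apply Finset.prod_le_prod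
            · intro x' _
              exact Finset.sum_nonneg fun c _ => (Real.exp_pos _).le
            · intro x' _
              exact hfac x x'
      _ = N * Real.exp (2 * (∑ x, ∑ x', ∑ c, Z x x' c) / q / M) := by
          simp only [Finset.prod_mul_distrib, prod_const, card_univ]
          congr 1
          · rw [hN, hq, Fintype.card_fun, Fintype.card_fun]
            push_cast
            rfl
          · simp only [← Real.exp_sum]
            congr 1
            simp only [← Finset.sum_div, ← Finset.mul_sum]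
  have h1 : ((univ.filter (fun Ψ : P → P → Y => t ≤ ∑ x, ∑ x', Z x x' (Ψ x x'))).card : ℝ) *
      Real.exp (t / M) ≤ N * Real.exp (2 * (∑ x, ∑ x', ∑ c, Z x x' c) / q / M) :=
    hmarkov.trans (hprod ▸ hbound)
  have h2 : Real.exp ((2 * (∑ x, ∑ x', ∑ c, Z x x' c) / q - t) / M) =
      Real.exp (2 * (∑ x, ∑ x', ∑ c, Z x x' c) / q / M) / Real.exp (t / M) := by
    rw [← Real.exp_sub]; congr 1; ring
  rw [h2, ← mul_div_assoc, le_div_iff₀ (Real.exp_pos _)]
  exact h1

namespace Sched

variable {s : Sched}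

/-- Chernoff bound for the mass of the random relation `G`. -/
theorem chernoff_G (j : ℕ) (Λ : s.W j → s.W j → ℝ) (M t : ℝ) (hM : 0 < M)
    (h0 : ∀ w w', 0 ≤ Λ w w')
    (hZ : ∀ x x' : s.P j, ∀ c : s.Y j,
      ∑ y : s.Y j, Λ ((s.split j).symm (x, y)) ((s.split j).symm (x', y + c)) ≤ M) :
    ((univ.filter (fun Ψ : s.Rel j => t ≤ ∑ p ∈ s.G j Ψ, Λ p.1 p.2)).card : ℝ) ≤
      Fintype.card (s.Rel j) *
        Real.exp ((2 * (∑ w, ∑ w', Λ w w') / 2 ^ s.lam j - t) / M) := by
  have key := table_chernoff (P := s.P j) (Y := s.Y j)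
    (fun x x' c => ∑ y : s.Y j, Λ ((s.split j).symm (x, y)) ((s.split j).symm (x', y + c)))
    M t hM (fun x x' c => Finset.sum_nonneg fun y _ => h0 _ _) hZ
  have hsum : ∑ x : s.P j, ∑ x' : s.P j, ∑ c : s.Y j, ∑ y : s.Y j,
      Λ ((s.split j).symm (x, y)) ((s.split j).symm (x', y + c)) = ∑ w, ∑ w', Λ w w' := by
    have e1 : ∀ x x' : s.P j, ∑ c : s.Y j, ∑ y : s.Y j,
        Λ ((s.split j).symm (x, y)) ((s.split j).symm (x', y + c)) =
        ∑ y : s.Y j, ∑ y' : s.Y j, Λ ((s.split j).symm (x, y)) ((s.split j).symm (x', y')) := by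
      intro x x'
      rw [Finset.sum_comm]
      refine Finset.sum_congr rfl fun y _ => ?_
      exact Equiv.sum_comp (Equiv.addLeft y)
        (fun y' => Λ ((s.split j).symm (x, y)) ((s.split j).symm (x', y')))
    simp_rw [e1]
    rw [← Equiv.sum_comp (s.split j).symm, Fintype.sum_prod_type]
    refine Finset.sum_congr rfl fun x _ => ?_
    rw [Finset.sum_comm]
    refine Finset.sum_congr rfl fun y _ => ?_
    rw [← Equiv.sum_comp (s.split j).symm, Fintype.sum_prod_type]
  simp only [ZMod.card] at key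
  rw [hsum] at key
  simp_rw [sum_G_coord]
  convert key using 3
  push_cast
  rfl

end Sched

end Vale.Agent.P109.H462
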