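import Mathlib
import Vale.Agent.P109.H462.Chernoff

/-!
# P109, block [C]: the list property of a random relation
-/

namespace Vale.Agent.P109.H462

open Finset

namespace Sched

variable {s : Sched}

theorem two_pow_succ_eq (j : ℕ) : 2 ^ (j + 1) = 2 ^ j + 2 ^ j := by ring

/-- left half of a name -/
def uL {A : Type*} {j : ℕ} (u : Fin (2 ^ (j + 1)) → A) : Fin (2 ^ j) → A :=
  fun i => u (Fin.cast (two_pow_succ_eq j).symm (Fin.castAdd (2 ^ j) i))

/-- right half of a name -/
def uR {A : Type*} {j : ℕ} (u : Fin (2 ^ (j + 1)) → A) : Fin (2 ^ j) → A :=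
  fun i => u (Fin.cast (two_pow_succ_eq j).symm (Fin.natAdd (2 ^ j) i))

theorem mis_halves {A : Type*} [DecidableEq A] {j : ℕ} (u v : Fin (2 ^ (j + 1)) → A) :
    mis u v = mis (uL u) (uL v) + mis (uR u) (uR v) := by
  simp only [mis, card_filter]
  rw [← Equiv.sum_comp (finCongr (two_pow_succ_eq j).symm), Fin.sum_univ_add]
  rfl

theorem uL_spell (t : s.Rels) (j : ℕ) (w : s.W (j + 1)) :
    uL (s.spell t (j + 1) w) = s.spell t j (s.left j w) := by
  funext i
  simp only [uL, spell, Fin.val_cast, Fin.val_castAdd]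
  exact letter_succ_lt t w i.2

theorem uR_spell (t : s.Rels) (j : ℕ) (w : s.W (j + 1)) :
    uR (s.spell t (j + 1) w) = s.spell t j (s.rightOf j (t j) w) := by
  funext i
  simp only [uR, spell, Fin.val_cast, Fin.val_natAdd]
  exact letter_succ_add t w i

theorem mis_spell_succ (t : s.Rels) (j : ℕ) (w : s.W (j + 1)) (u : Fin (2 ^ (j + 1)) → s.W 0) :
    mis (s.spell t (j + 1) w) u = mis (s.spell t j (s.left j w)) (uL u) +
      mis (s.spell t j (s.rightOf j (t j) w)) (uR u) := by
  rw [mis_halves, uL_spell, uR_spell]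

theorem spell_injective (t : s.Rels) (j : ℕ) : Function.Injective (s.spell t j) := by
  induction j with
  | zero =>
    intro a b h
    exact congrFun h ⟨0, by norm_num⟩
  | succ j ih =>
    intro a b h
    have h1 : s.left j a = s.left j b := by
      apply ih
      rw [← uL_spell, ← uL_spell, h]
    have h2 : s.rightOf j (t j) a = s.rightOf j (t j) b := by
      apply ih
      rw [← uR_spell, ← uR_spell, h]
    exact halves_injective j (t j) (Prod.ext h1 h2)

theorem listProp_mono {t : s.Rels} {j : ℕ} {η η' : ℝ} (h : η ≤ η') (hl : ListProp t j η) :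
    ListProp t j η' := by
  intro u m
  refine (hl u m).trans ?_
  apply Real.rpow_le_rpow_of_exponent_le (by norm_num)
  have : (0 : ℝ) ≤ s.κ j := Nat.cast_nonneg _
  nlinarith

theorem listProp_congr {t t' : s.Rels} {j : ℕ} (h : ∀ i < j, t i = t' i) {η : ℝ}
    (hl : ListProp t j η) : ListProp t' j η := by
  intro u m
  rw [← spell_congr h]
  exact hl u m

theorem listProp_zero (t : s.Rels) : ListProp t 0 0 := by
  intro u m
  rcases Nat.eq_zero_or_pos m with rfl | hm
  · have : (univ.filter (fun w : s.W 0 => mis (s.spell t 0 w) u ≤ 0)) ⊆ {u ⟨0, by norm_num⟩} := by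
      intro w hw
      rw [mem_filter] at hw
      have h0 := Nat.le_zero.1 hw.2
      rw [mis, card_eq_zero, filter_eq_empty_iff] at h0
      have := h0 (mem_univ (⟨0, by norm_num⟩ : Fin (2 ^ 0)))
      simp only [ne_eq, not_not] at this
      rw [mem_singleton, ← this]
      rfl
    have hc := card_le_card this
    rw [card_singleton] at hc
    have : ((s.κ 0 : ℝ) * (((0 : ℕ) : ℝ) / 2 ^ 0 + 0)) = 0 := by simp
    rw [this, Real.rpow_zero]
    exact_mod_cast hc
  · have hc : (univ.filter (fun w : s.W 0 => mis (s.spell t 0 w) u ≤ m)).card ≤ 2 ^ s.κ 0 := by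
      refine (card_le_univ _).trans ?_
      rw [card_W]
    calc ((univ.filter (fun w : s.W 0 => mis (s.spell t 0 w) u ≤ m)).card : ℝ)
        ≤ (2 : ℝ) ^ (s.κ 0 : ℝ) := by rw [Real.rpow_natCast]; exact_mod_cast hc
      _ ≤ _ := by
        apply Real.rpow_le_rpow_of_exponent_le (by norm_num)
        have h1 : (1 : ℝ) ≤ m := by exact_mod_cast hm
        have h0 : (0 : ℝ) ≤ s.κ 0 := Nat.cast_nonneg _
        have : (m : ℝ) / 2 ^ 0 + 0 = m := by simp
        rw [this]
        nlinarith

/-- Number of pairs of words with total mismatch at most `m`. -/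
theorem sum_near_le (t : s.Rels) (j : ℕ) (η : ℝ) (hl : ListProp t j η)
    (u v : Fin (2 ^ j) → s.W 0) (m : ℕ) :
    ∑ w : s.W j, ∑ w' : s.W j,
      (if mis (s.spell t j w) u + mis (s.spell t j w') v ≤ m then (1 : ℝ) else 0) ≤
      (m + 1) * (2 : ℝ) ^ ((s.κ j : ℝ) * ((m : ℝ) / 2 ^ j + 2 * η)) := by
  have h1 : ∀ w w' : s.W j,
      (if mis (s.spell t j w) u + mis (s.spell t j w') v ≤ m then (1 : ℝ) else 0) ≤
      ∑ k ∈ range (m + 1), (if mis (s.spell t j w) u ≤ k then (1 : ℝ) else 0) *
        (if mis (s.spell t j w') v ≤ m - k then (1 : ℝ) else 0) := by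
    intro w w'
    have hnn : ∀ k ∈ range (m + 1), (0 : ℝ) ≤ (if mis (s.spell t j w) u ≤ k then (1 : ℝ) else 0) *
        (if mis (s.spell t j w') v ≤ m - k then (1 : ℝ) else 0) := by
      intro k _
      positivity
    split_ifs with h
    · have hk : mis (s.spell t j w) u ∈ range (m + 1) := by rw [mem_range]; omega
      refine le_trans ?_ (Finset.single_le_sum hnn hk)
      rw [if_pos le_rfl, if_pos (by omega)]
      norm_num
    · exact Finset.sum_nonneg hnn
  calc ∑ w : s.W j, ∑ w' : s.W j,
      (if mis (s.spell t j w) u + mis (s.spell t j w') v ≤ m then (1 : ℝ) else 0)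
      ≤ ∑ w : s.W j, ∑ w' : s.W j, ∑ k ∈ range (m + 1),
          (if mis (s.spell t j w) u ≤ k then (1 : ℝ) else 0) *
          (if mis (s.spell t j w') v ≤ m - k then (1 : ℝ) else 0) :=
        Finset.sum_le_sum fun w _ => Finset.sum_le_sum fun w' _ => h1 w w'
    _ = ∑ k ∈ range (m + 1), (∑ w : s.W j, (if mis (s.spell t j w) u ≤ k then (1 : ℝ) else 0)) *
          (∑ w' : s.W j, (if mis (s.spell t j w') v ≤ m - k then (1 : ℝ) else 0)) := by
        simp_rw [Finset.sum_mul_sum]
        rw [Finset.sum_comm (s := range (m + 1))]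
        refine Finset.sum_congr rfl fun w _ => ?_
        rw [Finset.sum_comm]
    _ ≤ ∑ _k ∈ range (m + 1), (2 : ℝ) ^ ((s.κ j : ℝ) * ((m : ℝ) / 2 ^ j + 2 * η)) := by
        apply Finset.sum_le_sum
        intro k hk
        rw [mem_range] at hk
        have e1 : ∑ w : s.W j, (if mis (s.spell t j w) u ≤ k then (1 : ℝ) else 0) =
            ((univ.filter (fun w : s.W j => mis (s.spell t j w) u ≤ k)).card : ℝ) := by
          rw [card_filter]; push_cast; rfl
        have e2 : ∑ w : s.W j, (if mis (s.spell t j w) v ≤ m - k then (1 : ℝ) else 0) =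
            ((univ.filter (fun w : s.W j => mis (s.spell t j w) v ≤ m - k)).card : ℝ) := by
          rw [card_filter]; push_cast; rfl
        rw [e1, e2]
        calc _ ≤ (2 : ℝ) ^ ((s.κ j : ℝ) * ((k : ℝ) / 2 ^ j + η)) *
              (2 : ℝ) ^ ((s.κ j : ℝ) * (((m - k : ℕ) : ℝ) / 2 ^ j + η)) :=
              mul_le_mul (hl u k) (hl v (m - k)) (Nat.cast_nonneg _)
                (Real.rpow_nonneg (by norm_num) _)
          _ = _ := by
              rw [← Real.rpow_add (by norm_num)]
              congr 1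
              rw [Nat.cast_sub (by omega)]
              ring
    _ = _ := by
        rw [sum_const, card_range, nsmul_eq_mul]
        push_cast
        ring

/-- The list count at level `j+1` is the mass of a weight on the relation. -/
theorem list_count_succ (t : s.Rels) (j : ℕ) (u : Fin (2 ^ (j + 1)) → s.W 0) (m : ℕ) :
    ((univ.filter (fun w : s.W (j + 1) => mis (s.spell t (j + 1) w) u ≤ m)).card : ℝ) =
      ∑ p ∈ s.G j (t j), (if mis (s.spell t j p.1) (uL u) + mis (s.spell t j p.2) (uR u) ≤ m
        then (1 : ℝ) else 0) := by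
  rw [sum_G j (t j) (fun w w' => if mis (s.spell t j w) (uL u) + mis (s.spell t j w') (uR u) ≤ m
        then (1 : ℝ) else 0), card_filter]
  push_cast
  refine Finset.sum_congr rfl fun w _ => ?_
  rw [mis_spell_succ]

end Sched

end Vale.Agent.P109.H462
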