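import Mathlib
import Vale.Agent.P109.H462.ListStep

/-!
# P109, block [C]: existence of the relations
-/

namespace Vale.Agent.P109.H462

open Finset

namespace Sched

variable {s : Sched}

/-- One bad event of the list property: exponentially small. -/
theorem list_event (t : s.Rels) (j : ℕ) (η η' : ℝ) (hl : ListProp t j η)
    (h1 : ((j : ℝ) + 3) ≤ 2 * s.κ j * (η' - η))
    (u : Fin (2 ^ (j + 1)) → s.W 0) (m : ℕ) (hm : m < 2 ^ (j + 1))
    (hx : (m : ℝ) / 2 ^ (j + 1) + η' < 1) :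
    ((univ.filter (fun Ψ : s.Rel j =>
      (2 : ℝ) ^ ((s.κ (j + 1) : ℝ) * ((m : ℝ) / 2 ^ (j + 1) + η')) ≤
        ∑ p ∈ s.G j Ψ, (if mis (s.spell t j p.1) (uL u) + mis (s.spell t j p.2) (uR u) ≤ m
        then (1 : ℝ) else 0))).card : ℝ) ≤
      Fintype.card (s.Rel j) * Real.exp (-((2 : ℝ) ^ ((s.κ (j + 1) : ℝ) * η' - s.lam j - 1))) := by
  set τ : ℝ := (2 : ℝ) ^ ((s.κ (j + 1) : ℝ) * ((m : ℝ) / 2 ^ (j + 1) + η')) with hτ
  set q : ℝ := (2 : ℝ) ^ s.lam j with hq
  have hqpos : 0 < q := by positivity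
  have hκ : (s.κ (j + 1) : ℝ) = 2 * s.κ j - s.lam j := by
    rw [s.κ_succ, Nat.cast_sub (by have := s.lam_le j; omega)]
    push_cast; ring
  have hqr : q = (2 : ℝ) ^ (s.lam j : ℝ) := by rw [hq, Real.rpow_natCast]
  have hZ : ∀ x x' : s.P j, ∀ c : s.Y j,
      ∑ y : s.Y j, (fun w w' : s.W j => if mis (s.spell t j w) (uL u) +
        mis (s.spell t j w') (uR u) ≤ m then (1 : ℝ) else 0)
        ((s.split j).symm (x, y)) ((s.split j).symm (x', y + c)) ≤ q := by
    intro x x' c
    calc _ ≤ ∑ _y : s.Y j, (1 : ℝ) := by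
          apply Finset.sum_le_sum
          intro y _
          dsimp only
          split_ifs <;> norm_num
      _ = q := by
          rw [sum_const, card_univ, ZMod.card, nsmul_eq_mul, mul_one, hq]
          push_cast; rfl
  have key := chernoff_G j (fun w w' : s.W j => if mis (s.spell t j w) (uL u) +
        mis (s.spell t j w') (uR u) ≤ m then (1 : ℝ) else 0) q τ hqpos
        (fun w w' => by split_ifs <;> norm_num) hZ
  refine key.trans ?_
  apply mul_le_mul_of_nonneg_left _ (Nat.cast_nonneg _)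
  apply Real.exp_le_exp.2
  have hsum := sum_near_le t j η hl (uL u) (uR u) m
  set S : ℝ := ∑ w : s.W j, ∑ w' : s.W j,
      (if mis (s.spell t j w) (uL u) + mis (s.spell t j w') (uR u) ≤ m then (1 : ℝ) else 0) with hS
  -- first part: 4 S ≤ q τ
  have hx2 : (m : ℝ) / 2 ^ j = 2 * ((m : ℝ) / 2 ^ (j + 1)) := by
    rw [pow_succ]; field_simp
  set x : ℝ := (m : ℝ) / 2 ^ (j + 1) with hxdef
  have hx0 : 0 ≤ x := by positivity
  have h4 : 4 * S ≤ q * τ := by
    have hm1 : ((m : ℝ) + 1) ≤ (2 : ℝ) ^ ((j : ℝ) + 1) := by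
      have : (m : ℝ) + 1 ≤ ((2 ^ (j + 1) : ℕ) : ℝ) := by exact_mod_cast hm
      refine this.trans (le_of_eq ?_)
      have e : ((j : ℝ) + 1) = ((j + 1 : ℕ) : ℝ) := by push_cast; ring
      rw [e, Real.rpow_natCast]
      push_cast; ring
    calc 4 * S ≤ 4 * ((m + 1) * (2 : ℝ) ^ ((s.κ j : ℝ) * ((m : ℝ) / 2 ^ j + 2 * η))) := by
          linarith
      _ ≤ 4 * ((2 : ℝ) ^ ((j : ℝ) + 1) * (2 : ℝ) ^ ((s.κ j : ℝ) * ((m : ℝ) / 2 ^ j + 2 * η))) := by
          have := mul_le_mul_of_nonneg_right hm1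
            (Real.rpow_nonneg (by norm_num : (0 : ℝ) ≤ 2)
              ((s.κ j : ℝ) * ((m : ℝ) / 2 ^ j + 2 * η)))
          linarith
      _ = (2 : ℝ) ^ ((j : ℝ) + 3 + (s.κ j : ℝ) * (2 * x + 2 * η)) := by
          rw [hx2]
          have e4 : (4 : ℝ) = (2 : ℝ) ^ (2 : ℝ) := by norm_num
          rw [e4, ← Real.rpow_add (by norm_num), ← Real.rpow_add (by norm_num)]
          congr 1; ring
      _ ≤ (2 : ℝ) ^ ((s.lam j : ℝ) + (s.κ (j + 1) : ℝ) * (x + η')) := by
          apply Real.rpow_le_rpow_of_exponent_le (by norm_num)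
          rw [hκ]
          have hl0 : (0 : ℝ) ≤ s.lam j := Nat.cast_nonneg _
          nlinarith [mul_nonneg hl0 (sub_nonneg.2 hx.le)]
      _ = q * τ := by
          rw [Real.rpow_add (by norm_num), hqr, hτ]
  have h5 : 2 * S / q ≤ τ / 2 := by
    rw [div_le_div_iff₀ hqpos (by norm_num)]
    linarith
  have h6 : (2 : ℝ) ^ ((s.κ (j + 1) : ℝ) * η' - s.lam j - 1) ≤ τ / (2 * q) := by
    rw [Real.rpow_sub (by norm_num), Real.rpow_sub (by norm_num), Real.rpow_one, ← hqr, div_div,
      mul_comm q 2]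
    apply div_le_div_of_nonneg_right _ (by positivity)
    rw [hτ]
    apply Real.rpow_le_rpow_of_exponent_le (by norm_num)
    have : (0 : ℝ) ≤ s.κ (j + 1) := Nat.cast_nonneg _
    nlinarith
  calc (2 * S / q - τ) / q ≤ (τ / 2 - τ) / q := by
        apply div_le_div_of_nonneg_right _ hqpos.le
        linarith
    _ = -(τ / (2 * q)) := by field_simp; ring
    _ ≤ _ := neg_le_neg h6

open scoped Classical in
/-- The list property passes to level `j + 1` for at least half of the relations. -/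
theorem list_step (t : s.Rels) (j : ℕ) (η η' : ℝ) (hl : ListProp t j η) (hη0 : 0 ≤ η')
    (h1 : ((j : ℝ) + 3) ≤ 2 * s.κ j * (η' - η))
    (h2 : (s.κ 0 : ℝ) * 2 ^ (j + 1) + j + 2 ≤
      (2 : ℝ) ^ ((s.κ (j + 1) : ℝ) * η' - s.lam j - 1)) :
    ((univ.filter (fun Ψ : s.Rel j =>
      ¬ ListProp (Function.update t j Ψ) (j + 1) η')).card : ℝ) ≤
      Fintype.card (s.Rel j) / 2 := by
  set E : ℝ := (2 : ℝ) ^ ((s.κ (j + 1) : ℝ) * η' - s.lam j - 1) with hE
  -- the union
  let Bad : (Fin (2 ^ (j + 1)) → s.W 0) × Fin (2 ^ (j + 1)) → Finset (s.Rel j) := fun um =>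
    univ.filter (fun Ψ : s.Rel j =>
      ((um.2 : ℕ) : ℝ) / 2 ^ (j + 1) + η' < 1 ∧
      (2 : ℝ) ^ ((s.κ (j + 1) : ℝ) * (((um.2 : ℕ) : ℝ) / 2 ^ (j + 1) + η')) ≤
        ∑ p ∈ s.G j Ψ, (if mis (s.spell t j p.1) (uL um.1) + mis (s.spell t j p.2) (uR um.1) ≤ um.2
        then (1 : ℝ) else 0))
  have hsub : (univ.filter (fun Ψ : s.Rel j => ¬ ListProp (Function.update t j Ψ) (j + 1) η')) ⊆
      univ.biUnion Bad := by
    intro Ψ hΨ
    rw [mem_filter] at hΨ
    have h := hΨ.2
    simp only [ListProp, not_forall, not_le] at h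
    obtain ⟨u, m, h⟩ := h
    have hcongr : ∀ i < j, Function.update t j Ψ i = t i := fun i hi =>
      Function.update_of_ne hi.ne _ _
    have hspell : s.spell (Function.update t j Ψ) j = s.spell t j := spell_congr hcongr
    rw [list_count_succ, hspell] at h
    simp only [Function.update_self] at h
    have hxm : (m : ℝ) / 2 ^ (j + 1) + η' < 1 := by
      by_contra hcon
      push Not at hcon
      have hle : ∑ p ∈ s.G j Ψ, (if mis (s.spell t j p.1) (uL u) +
          mis (s.spell t j p.2) (uR u) ≤ m then (1 : ℝ) else 0) ≤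
          (2 : ℝ) ^ ((s.κ (j + 1) : ℝ) * ((m : ℝ) / 2 ^ (j + 1) + η')) := by
        calc _ ≤ ∑ _p ∈ s.G j Ψ, (1 : ℝ) := by
              apply Finset.sum_le_sum
              intro p _
              split_ifs <;> norm_num
          _ = (2 : ℝ) ^ (s.κ (j + 1) : ℝ) := by
              rw [sum_const, card_G, nsmul_eq_mul, mul_one, Real.rpow_natCast]
              push_cast; rfl
          _ ≤ _ := by
              apply Real.rpow_le_rpow_of_exponent_le (by norm_num)
              have : (0 : ℝ) ≤ s.κ (j + 1) := Nat.cast_nonneg _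
              nlinarith
      exact absurd h (not_lt.2 hle)
    have hm : m < 2 ^ (j + 1) := by
      have h3 : (m : ℝ) / 2 ^ (j + 1) < 1 := by linarith
      rw [div_lt_one (by positivity)] at h3
      exact_mod_cast h3
    rw [mem_biUnion]
    refine ⟨(u, ⟨m, hm⟩), mem_univ _, ?_⟩
    simp only [Bad, mem_filter, mem_univ, true_and]
    exact ⟨hxm, h.le⟩
  have hBad : ∀ um ∈ (univ : Finset ((Fin (2 ^ (j + 1)) → s.W 0) × Fin (2 ^ (j + 1)))),
      ((Bad um).card : ℝ) ≤ Fintype.card (s.Rel j) * Real.exp (-E) := by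
    rintro ⟨u, m⟩ _
    by_cases hx : ((m : ℕ) : ℝ) / 2 ^ (j + 1) + η' < 1
    · refine le_trans ?_ (list_event t j η η' hl h1 u m m.2 hx)
      have : Bad (u, m) ⊆ (univ.filter (fun Ψ : s.Rel j =>
        (2 : ℝ) ^ ((s.κ (j + 1) : ℝ) * (((m : ℕ) : ℝ) / 2 ^ (j + 1) + η')) ≤
        ∑ p ∈ s.G j Ψ, (if mis (s.spell t j p.1) (uL u) + mis (s.spell t j p.2) (uR u) ≤ m
        then (1 : ℝ) else 0))) := by
        intro Ψ hΨ
        simp only [Bad, mem_filter, mem_univ, true_and] at hΨ ⊢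
        exact hΨ.2
      exact_mod_cast card_le_card this
    · have : Bad (u, m) = ∅ := by
        simp only [Bad, filter_eq_empty_iff, mem_univ, true_implies]
        intro Ψ h
        exact hx h.1
      rw [this, card_empty]
      push_cast
      positivity
  have hcard : ((univ.filter (fun Ψ : s.Rel j =>
      ¬ ListProp (Function.update t j Ψ) (j + 1) η')).card : ℝ) ≤
      (2 : ℝ) ^ ((s.κ 0 : ℝ) * 2 ^ (j + 1) + (j + 1)) *
        (Fintype.card (s.Rel j) * Real.exp (-E)) := by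
    calc _ ≤ ((univ.biUnion Bad).card : ℝ) := by exact_mod_cast card_le_card hsub
      _ ≤ ∑ um ∈ (univ : Finset ((Fin (2 ^ (j + 1)) → s.W 0) × Fin (2 ^ (j + 1)))),
            ((Bad um).card : ℝ) := by exact_mod_cast card_biUnion_le
      _ ≤ ∑ _um ∈ (univ : Finset ((Fin (2 ^ (j + 1)) → s.W 0) × Fin (2 ^ (j + 1)))),
            (Fintype.card (s.Rel j) * Real.exp (-E)) := Finset.sum_le_sum hBad
      _ = _ := by
          rw [sum_const, card_univ, nsmul_eq_mul]
          congr 1
          rw [Fintype.card_prod, Fintype.card_fun, Fintype.card_fin, Fintype.card_fin,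
            Real.rpow_add (by norm_num), Real.rpow_mul (by norm_num)]
          push_cast
          congr 1
          · rw [Real.rpow_natCast]
            have : ((2 : ℝ) ^ (j + 1)) = (((2 ^ (j + 1) : ℕ)) : ℝ) := by push_cast; rfl
            rw [this, Real.rpow_natCast]
          · have : ((j : ℝ) + 1) = ((j + 1 : ℕ) : ℝ) := by push_cast; ring
            rw [this, Real.rpow_natCast]
  refine hcard.trans ?_
  have h3 : (2 : ℝ) ^ ((s.κ 0 : ℝ) * 2 ^ (j + 1) + (j + 1)) * Real.exp (-E) ≤ 1 / 2 := by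
    have e2 : (2 : ℝ) ≤ Real.exp 1 := by
      have := Real.add_one_le_exp (1 : ℝ)
      linarith
    have h4 : (2 : ℝ) ^ ((s.κ 0 : ℝ) * 2 ^ (j + 1) + (j + 1)) * 2 ≤ Real.exp E := by
      calc (2 : ℝ) ^ ((s.κ 0 : ℝ) * 2 ^ (j + 1) + (j + 1)) * 2
          = (2 : ℝ) ^ ((s.κ 0 : ℝ) * 2 ^ (j + 1) + j + 2) := by
            rw [show ((s.κ 0 : ℝ) * 2 ^ (j + 1) + j + 2) =
              ((s.κ 0 : ℝ) * 2 ^ (j + 1) + (j + 1)) + 1 by ring, Real.rpow_add_one (by norm_num)]
        _ ≤ (Real.exp 1) ^ ((s.κ 0 : ℝ) * 2 ^ (j + 1) + j + 2) := by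
            apply Real.rpow_le_rpow (by norm_num) e2 (by positivity)
        _ = Real.exp ((s.κ 0 : ℝ) * 2 ^ (j + 1) + j + 2) := by
            rw [← Real.exp_mul, one_mul]
        _ ≤ _ := Real.exp_le_exp.2 h2
    rw [Real.exp_neg, ← div_eq_mul_inv, div_le_iff₀ (Real.exp_pos _)]
    linarith
  have hN : (0 : ℝ) ≤ Fintype.card (s.Rel j) := Nat.cast_nonneg _
  calc _ = Fintype.card (s.Rel j) *
      ((2 : ℝ) ^ ((s.κ 0 : ℝ) * 2 ^ (j + 1) + (j + 1)) * Real.exp (-E)) := by ring
    _ ≤ Fintype.card (s.Rel j) * (1 / 2) := mul_le_mul_of_nonneg_left h3 hN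
    _ = _ := by ring

open scoped Classical in
/-- The weights: for all but a fraction `exp (-4 / (q² th))` of the relations. -/
theorem weight_event (j : ℕ) (Λ : s.W j → s.W j → ℝ) {th : ℝ} (hth : 0 < th)
    (h0 : ∀ w w', 0 ≤ Λ w w') (h1 : ∀ w w', Λ w w' ≤ th) (h2 : ∑ w, ∑ w', Λ w w' ≤ 2) :
    ((univ.filter (fun Ψ : s.Rel j =>
      8 / 2 ^ s.lam j < ∑ p ∈ s.G j Ψ, Λ p.1 p.2)).card : ℝ) ≤
      Fintype.card (s.Rel j) * Real.exp (-(4 / ((2 ^ s.lam j) ^ 2 * th))) := by
  set q : ℝ := (2 : ℝ) ^ s.lam j with hq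
  have hqpos : 0 < q := by positivity
  have hZ : ∀ x x' : s.P j, ∀ c : s.Y j,
      ∑ y : s.Y j, Λ ((s.split j).symm (x, y)) ((s.split j).symm (x', y + c)) ≤ q * th := by
    intro x x' c
    calc _ ≤ ∑ _y : s.Y j, th := Finset.sum_le_sum fun y _ => h1 _ _
      _ = q * th := by
          rw [sum_const, card_univ, ZMod.card, nsmul_eq_mul, hq]
          push_cast; rfl
  have key := chernoff_G j Λ (q * th) (8 / q) (by positivity) h0 hZ
  calc _ ≤ ((univ.filter (fun Ψ : s.Rel j =>
      8 / q ≤ ∑ p ∈ s.G j Ψ, Λ p.1 p.2)).card : ℝ) := by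
        have : (univ.filter (fun Ψ : s.Rel j => 8 / q < ∑ p ∈ s.G j Ψ, Λ p.1 p.2)) ⊆
          (univ.filter (fun Ψ : s.Rel j => 8 / q ≤ ∑ p ∈ s.G j Ψ, Λ p.1 p.2)) := by
          intro Ψ hΨ
          rw [mem_filter] at hΨ ⊢
          exact ⟨hΨ.1, hΨ.2.le⟩
        exact_mod_cast card_le_card this
    _ ≤ _ := by
        convert key using 2
    _ ≤ _ := by
        apply mul_le_mul_of_nonneg_left _ (Nat.cast_nonneg _)
        apply Real.exp_le_exp.2
        rw [← hq]
        have h3 : 2 * (∑ w, ∑ w', Λ w w') / q - 8 / q ≤ -(4 / q) := by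
          rw [← sub_nonneg]
          have : -(4 / q) - (2 * (∑ w, ∑ w', Λ w w') / q - 8 / q) =
            2 * (2 - ∑ w, ∑ w', Λ w w') / q := by ring
          rw [this]
          exact div_nonneg (by linarith) hqpos.le
        calc _ ≤ -(4 / q) / (q * th) := div_le_div_of_nonneg_right h3 (by positivity)
          _ = _ := by field_simp

/-- The list exponents `η_j`. -/
noncomputable def eta (s : Sched) : ℕ → ℝ
  | 0 => 1 / 200
  | j + 1 => eta s j + ((j : ℝ) + 3) / (2 * s.κ j)

theorem eta_nonneg (s : Sched) (j : ℕ) : 0 ≤ s.eta j := by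
  induction j with
  | zero => simp only [eta]; norm_num
  | succ j ih => simp only [eta]; positivity

open scoped Classical in
/-- **Existence of the relations**: for arbitrary families of weights (the family at level `j` may
depend on the relations below level `j`) one can choose the relations so that no admissible
weight of the family charges `G j` too much, and all levels have the list property. -/
theorem exists_rels_aux (s : Sched) (th : ℕ → ℝ) (hth : ∀ j, 0 < th j)
    (hκ : ∀ j, 0 < s.κ j)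
    (hlist : ∀ j, (s.κ 0 : ℝ) * 2 ^ (j + 1) + j + 2 ≤
      (2 : ℝ) ^ ((s.κ (j + 1) : ℝ) * s.eta (j + 1) - s.lam j - 1))
    (𝓕 : ∀ j, s.Rels → Finset (s.W j → s.W j → ℝ))
    (hdep : ∀ j t t', (∀ i < j, t i = t' i) → 𝓕 j t = 𝓕 j t')
    (hcard : ∀ j t, ((𝓕 j t).card : ℝ) ≤ Real.exp (4 / ((2 ^ s.lam j) ^ 2 * th j) - 1)) :
    ∃ t : s.Rels, (∀ j, ∀ Λ ∈ 𝓕 j t, (∀ w w', 0 ≤ Λ w w') → (∀ w w', Λ w w' ≤ th j) →
        ∑ w, ∑ w', Λ w w' ≤ 2 → ∑ p ∈ s.G j (t j), Λ p.1 p.2 ≤ 8 / 2 ^ s.lam j) ∧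
      (∀ j, ListProp t j (s.eta j)) := by
  -- one step
  have step : ∀ (j : ℕ) (t : s.Rels), ∃ Ψ : s.Rel j,
      (∀ Λ ∈ 𝓕 j t, (∀ w w', 0 ≤ Λ w w') → (∀ w w', Λ w w' ≤ th j) →
        ∑ w, ∑ w', Λ w w' ≤ 2 → ∑ p ∈ s.G j Ψ, Λ p.1 p.2 ≤ 8 / 2 ^ s.lam j) ∧
      (ListProp t j (s.eta j) → ListProp (Function.update t j Ψ) (j + 1) (s.eta (j + 1))) := by
    intro j t
    by_contra hcon
    push Not at hcon
    set N : ℝ := (Fintype.card (s.Rel j) : ℝ) with hN
    have hNpos : 0 < N := by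
      rw [hN]; exact_mod_cast Fintype.card_pos
    let B1 : Finset (s.Rel j) := univ.filter (fun Ψ : s.Rel j => ListProp t j (s.eta j) ∧
      ¬ ListProp (Function.update t j Ψ) (j + 1) (s.eta (j + 1)))
    let elig : Finset (s.W j → s.W j → ℝ) := (𝓕 j t).filter (fun Λ => (∀ w w', 0 ≤ Λ w w') ∧
      (∀ w w', Λ w w' ≤ th j) ∧ ∑ w, ∑ w', Λ w w' ≤ 2)
    let B2 : Finset (s.Rel j) := elig.biUnion (fun Λ => univ.filter (fun Ψ : s.Rel j =>
      8 / 2 ^ s.lam j < ∑ p ∈ s.G j Ψ, Λ p.1 p.2))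
    have hcover : (univ : Finset (s.Rel j)) ⊆ B1 ∪ B2 := by
      intro Ψ _
      rw [mem_union]
      by_cases h : Ψ ∈ B2
      · exact Or.inr h
      · left
        have h1 := hcon Ψ (by
          intro Λ hΛ h0 h1 h2
          by_contra hlt
          push Not at hlt
          apply h
          simp only [B2, mem_biUnion]
          refine ⟨Λ, ?_, ?_⟩
          · simp only [elig, mem_filter]
            exact ⟨hΛ, h0, h1, h2⟩
          · rw [mem_filter]
            exact ⟨mem_univ _, hlt⟩)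
        simp only [B1, mem_filter, mem_univ, true_and]
        exact h1
    have hB1 : (B1.card : ℝ) ≤ N / 2 := by
      by_cases hl : ListProp t j (s.eta j)
      · have h1 : ((j : ℝ) + 3) ≤ 2 * s.κ j * (s.eta (j + 1) - s.eta j) := by
          have hk : (0 : ℝ) < s.κ j := by exact_mod_cast hκ j
          simp only [eta, add_sub_cancel_left]
          rw [mul_div_cancel₀ _ (by positivity)]
        have := list_step t j (s.eta j) (s.eta (j + 1)) hl (s.eta_nonneg (j + 1)) h1 (hlist j)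
        refine le_trans ?_ this
        have hs : B1 ⊆ univ.filter (fun Ψ : s.Rel j =>
            ¬ ListProp (Function.update t j Ψ) (j + 1) (s.eta (j + 1))) := by
          intro Ψ hΨ
          simp only [B1, mem_filter, mem_univ, true_and] at hΨ ⊢
          exact hΨ.2
        exact_mod_cast card_le_card hs
      · have : B1 = ∅ := by
          simp only [B1, filter_eq_empty_iff, mem_univ, true_implies]
          intro Ψ h
          exact hl h.1
        rw [this, card_empty]
        push_cast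
        positivity
    have hB2 : (B2.card : ℝ) ≤ N * Real.exp (-1) := by
      have hbu : B2.card ≤ ∑ Λ ∈ elig, (univ.filter (fun Ψ : s.Rel j =>
            8 / 2 ^ s.lam j < ∑ p ∈ s.G j Ψ, Λ p.1 p.2)).card := card_biUnion_le
      calc (B2.card : ℝ) ≤ ∑ Λ ∈ elig, ((univ.filter (fun Ψ : s.Rel j =>
            8 / 2 ^ s.lam j < ∑ p ∈ s.G j Ψ, Λ p.1 p.2)).card : ℝ) := by
            exact_mod_cast hbu
        _ ≤ ∑ _Λ ∈ elig, N * Real.exp (-(4 / ((2 ^ s.lam j) ^ 2 * th j))) := by
            apply Finset.sum_le_sum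
            intro Λ hΛ
            simp only [elig, mem_filter] at hΛ
            exact weight_event j Λ (hth j) hΛ.2.1 hΛ.2.2.1 hΛ.2.2.2
        _ = elig.card * (N * Real.exp (-(4 / ((2 ^ s.lam j) ^ 2 * th j)))) := by
            rw [sum_const, nsmul_eq_mul]
        _ ≤ Real.exp (4 / ((2 ^ s.lam j) ^ 2 * th j) - 1) *
              (N * Real.exp (-(4 / ((2 ^ s.lam j) ^ 2 * th j)))) := by
            apply mul_le_mul_of_nonneg_right _ (by positivity)
            refine le_trans ?_ (hcard j t)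
            exact_mod_cast card_le_card (filter_subset _ _)
        _ = N * (Real.exp (4 / ((2 ^ s.lam j) ^ 2 * th j) - 1) *
              Real.exp (-(4 / ((2 ^ s.lam j) ^ 2 * th j)))) := by ring
        _ = N * Real.exp (-1) := by
            rw [← Real.exp_add]
            congr 2; ring
    have htot : N ≤ N / 2 + N * Real.exp (-1) := by
      calc N = ((univ : Finset (s.Rel j)).card : ℝ) := by rw [card_univ]
        _ ≤ ((B1 ∪ B2).card : ℝ) := by exact_mod_cast card_le_card hcover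
        _ ≤ (B1.card : ℝ) + B2.card := by exact_mod_cast card_union_le _ _
        _ ≤ _ := add_le_add hB1 hB2
    have he : Real.exp (-1) < 1 / 2 := by
      rw [Real.exp_neg]
      have : 2 < Real.exp 1 := by
        have := Real.exp_one_gt_d9
        linarith
      rw [inv_lt_comm₀ (Real.exp_pos _) (by norm_num)]
      linarith
    nlinarith
  -- recursion: build the relations below each level
  choose f hf1 hf2 using step
  let T : ℕ → s.Rels := fun n => Nat.rec (motive := fun _ => s.Rels) (fun _ _ _ => 0)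
    (fun j t => Function.update t j (f j t)) n
  have T_succ : ∀ j, T (j + 1) = Function.update (T j) j (f j (T j)) := fun j => rfl
  have T_stable : ∀ i j, i < j → T j i = f i (T i) := by
    intro i j hij
    induction j with
    | zero => omega
    | succ j ih =>
      rw [T_succ]
      rcases Nat.lt_succ_iff_lt_or_eq.1 hij with h | h
      · rw [Function.update_of_ne h.ne]
        exact ih h
      · subst h
        rw [Function.update_self]
  let t : s.Rels := fun i => f i (T i)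
  have ht : ∀ j, ∀ i < j, T j i = t i := fun j i hij => T_stable i j hij
  refine ⟨t, ?_, ?_⟩
  · intro j Λ hΛ h0 h1 h2
    rw [← hdep j (T j) t (ht j)] at hΛ
    exact hf1 j (T j) Λ hΛ h0 h1 h2
  · intro j
    induction j with
    | zero =>
      refine listProp_mono ?_ (listProp_zero t)
      simp only [eta]
      norm_num
    | succ j ih =>
      have h1 : ListProp (T j) j (s.eta j) := listProp_congr (fun i hi => (ht j i hi).symm) ih
      have h2 := hf2 j (T j) h1
      rw [← T_succ] at h2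
      exact listProp_congr (ht (j + 1)) h2

end Sched

end Vale.Agent.P109.H462
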