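import Mathlib
import Vale.Agent.P109.H462.Exists

/-!
# P109, block [C]: the concrete schedule of parameters and the final existence theorem
-/

namespace Vale.Agent.P109.H462

open Finset

/-- Length of the stretch number `s`. -/
def Jlen (s : ℕ) : ℕ := 1000 * 8 ^ s

/-- Start of the stretch number `s`. -/
def js : ℕ → ℕ
  | 0 => 0
  | s + 1 => js s + Jlen s + 1

@[simp] theorem js_zero : js 0 = 0 := rfl
theorem js_succ (s : ℕ) : js (s + 1) = js s + Jlen s + 1 := rfl

theorem Jlen_pos (s : ℕ) : 0 < Jlen s := by unfold Jlen; positivity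
theorem Jlen_ge (s : ℕ) : 1000 ≤ Jlen s := by
  unfold Jlen
  have : 1 ≤ 8 ^ s := Nat.one_le_pow _ _ (by norm_num)
  omega

theorem js_strictMono : StrictMono js :=
  strictMono_nat_of_lt_succ fun s => by rw [js_succ]; omega

theorem le_js (s : ℕ) : s ≤ js s := js_strictMono.id_le s

/-- Every level lies in exactly one interval `[js s, js (s+1))`. -/
theorem exists_stage (j : ℕ) : ∃ s, js s ≤ j ∧ j < js (s + 1) := by
  induction j with
  | zero => exact ⟨0, le_rfl, by rw [js_succ]; omega⟩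
  | succ j ih =>
    obtain ⟨s, h1, h2⟩ := ih
    rcases Nat.lt_or_ge (j + 1) (js (s + 1)) with h | h
    · exact ⟨s, by omega, h⟩
    · refine ⟨s + 1, h, ?_⟩
      have h3 : js (s + 1) < js (s + 1 + 1) := js_strictMono (by omega)
      omega

theorem stage_unique {j s s' : ℕ} (h1 : js s ≤ j) (h2 : j < js (s + 1)) (h1' : js s' ≤ j)
    (h2' : j < js (s' + 1)) : s = s' := by
  rcases lt_trichotomy s s' with h | h | h
  · have h3 : js (s + 1) ≤ js s' := js_strictMono.monotone (by omega)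
    omega
  · exact h
  · have h3 : js (s' + 1) ≤ js s := js_strictMono.monotone (by omega)
    omega

/-- The divisor at level `j`: `Jlen s` if `j` is in the stretch `s`, and `0` at the idle levels. -/
noncomputable def Jd (j : ℕ) : ℕ :=
  if j < js (Classical.choose (exists_stage j)) + Jlen (Classical.choose (exists_stage j)) then
    Jlen (Classical.choose (exists_stage j)) else 0

theorem Jd_of_lt {s i : ℕ} (h : i < Jlen s) : Jd (js s + i) = Jlen s := by
  have hs := Classical.choose_spec (exists_stage (js s + i))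
  have he : Classical.choose (exists_stage (js s + i)) = s :=
    stage_unique hs.1 hs.2 (by omega) (by rw [js_succ]; omega)
  unfold Jd
  rw [he, if_pos (by omega)]

theorem Jd_idle (s : ℕ) : Jd (js s + Jlen s) = 0 := by
  have hs := Classical.choose_spec (exists_stage (js s + Jlen s))
  have he : Classical.choose (exists_stage (js s + Jlen s)) = s :=
    stage_unique hs.1 hs.2 (by omega) (by rw [js_succ]; omega)
  unfold Jd
  rw [he, if_neg (by omega)]

theorem Jd_zero_or (j : ℕ) : Jd j = 0 ∨ 1000 ≤ Jd j := by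
  unfold Jd
  split_ifs
  · exact Or.inr (Jlen_ge _)
  · exact Or.inl rfl

/-- The exponents `κ j`. -/
noncomputable def kap : ℕ → ℕ
  | 0 => 10 ^ 6
  | j + 1 => 2 * kap j - kap j / Jd j

/-- The concrete schedule. -/
noncomputable def sched : Sched where
  κ := kap
  lam j := kap j / Jd j
  lam_le _ := Nat.div_le_self _ _
  κ_succ _ := rfl

theorem sched_κ (j : ℕ) : sched.κ j = kap j := rfl
theorem sched_κ_zero : sched.κ 0 = 10 ^ 6 := rfl
theorem sched_lam (j : ℕ) : sched.lam j = sched.κ j / Jd j := rfl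

theorem sched_lam_stretch {s i : ℕ} (h : i < Jlen s) :
    sched.lam (js s + i) = sched.κ (js s + i) / Jlen s := by
  rw [sched_lam, Jd_of_lt h]

theorem sched_lam_idle (s : ℕ) : sched.lam (js s + Jlen s) = 0 := by
  rw [sched_lam, Jd_idle, Nat.div_zero]

theorem sched_lam_le (j : ℕ) : 1000 * sched.lam j ≤ sched.κ j := by
  rw [sched_lam]
  rcases Jd_zero_or j with h | h
  · rw [h, Nat.div_zero]; omega
  · calc 1000 * (sched.κ j / Jd j) ≤ Jd j * (sched.κ j / Jd j) := Nat.mul_le_mul_right _ h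
      _ ≤ sched.κ j := Nat.mul_div_le _ _

theorem sched_κ_succ_real (j : ℕ) :
    (sched.κ (j + 1) : ℝ) = 2 * sched.κ j - sched.lam j := by
  rw [sched.κ_succ, Nat.cast_sub (by have := sched.lam_le j; omega)]
  push_cast; ring

theorem sched_lam_le_real (j : ℕ) : (sched.lam j : ℝ) ≤ sched.κ j / 1000 := by
  have : (1000 : ℝ) * sched.lam j ≤ sched.κ j := by exact_mod_cast sched_lam_le j
  linarith

theorem sched_κ_succ_le (j : ℕ) : (sched.κ (j + 1) : ℝ) ≤ 2 * sched.κ j := by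
  rw [sched_κ_succ_real]
  have : (0 : ℝ) ≤ sched.lam j := Nat.cast_nonneg _
  linarith

/-- exponential growth -/
theorem sched_κ_ge (j : ℕ) : (10 : ℝ) ^ 6 * (19 / 10) ^ j ≤ sched.κ j := by
  induction j with
  | zero => rw [sched_κ_zero]; norm_num
  | succ j ih =>
    rw [sched_κ_succ_real]
    have h := sched_lam_le_real j
    have h0 : (0 : ℝ) ≤ sched.κ j := Nat.cast_nonneg _
    rw [pow_succ (19 / 10 : ℝ) j]
    linarith

theorem sched_κ_pos (j : ℕ) : 0 < sched.κ j := by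
  have h := sched_κ_ge j
  have : (0 : ℝ) < (10 : ℝ) ^ 6 * (19 / 10) ^ j := by positivity
  exact_mod_cast lt_of_lt_of_le this h

theorem sched_κ_ge_linear (j : ℕ) : (10 : ℝ) ^ 6 * (1 + 9 / 10 * j) ≤ sched.κ j := by
  refine le_trans ?_ (sched_κ_ge j)
  apply mul_le_mul_of_nonneg_left _ (by positivity)
  have := one_add_mul_le_pow (a := (9 / 10 : ℝ)) (by norm_num) j
  calc (1 : ℝ) + 9 / 10 * j = 1 + j * (9 / 10) := by ring
    _ ≤ _ := this
    _ = _ := by norm_num

/-- Within a stretch the rate `κ / 2 ^ j` drops by at most a factor `2`. -/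
theorem sched_κ_stretch {s i : ℕ} (h : i ≤ Jlen s) :
    (sched.κ (js s) : ℝ) * 2 ^ i * (1 - i / (2 * Jlen s)) ≤ sched.κ (js s + i) := by
  have hJ : (0 : ℝ) < Jlen s := by exact_mod_cast Jlen_pos s
  induction i with
  | zero => simp
  | succ i ih =>
    have ih := ih (by omega)
    have hi : i < Jlen s := by omega
    have hlam : (sched.lam (js s + i) : ℝ) ≤ sched.κ (js s + i) / Jlen s := by
      rw [sched_lam_stretch hi]
      exact Nat.cast_div_le
    have h1 : (sched.κ (js s + (i + 1)) : ℝ) = 2 * sched.κ (js s + i) - sched.lam (js s + i) :=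
      sched_κ_succ_real (js s + i)
    rw [h1]
    have h2 : 2 * (sched.κ (js s + i) : ℝ) * (1 - 1 / (2 * Jlen s)) ≤
        2 * sched.κ (js s + i) - sched.lam (js s + i) := by
      have : 2 * (sched.κ (js s + i) : ℝ) * (1 - 1 / (2 * Jlen s)) =
        2 * sched.κ (js s + i) - sched.κ (js s + i) / Jlen s := by field_simp
      linarith
    refine le_trans ?_ h2
    have hJ1 : (1 : ℝ) ≤ Jlen s := by exact_mod_cast Jlen_pos s
    have h3 : (0 : ℝ) ≤ 1 - 1 / (2 * Jlen s) := by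
      rw [sub_nonneg, div_le_one (by positivity)]
      linarith
    have h4 : (1 : ℝ) - ((i + 1 : ℕ) : ℝ) / (2 * Jlen s) ≤
        (1 - i / (2 * Jlen s)) * (1 - 1 / (2 * Jlen s)) := by
      push_cast
      have : (0 : ℝ) ≤ i / (2 * Jlen s) * (1 / (2 * Jlen s)) := by positivity
      have e : ((i : ℝ) + 1) / (2 * Jlen s) = i / (2 * Jlen s) + 1 / (2 * Jlen s) := by ring
      rw [e]
      nlinarith
    have hk0 : (0 : ℝ) ≤ (sched.κ (js s) : ℝ) * 2 ^ (i + 1) := by positivity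
    calc (sched.κ (js s) : ℝ) * 2 ^ (i + 1) * (1 - ((i + 1 : ℕ) : ℝ) / (2 * Jlen s))
        ≤ (sched.κ (js s) : ℝ) * 2 ^ (i + 1) *
          ((1 - i / (2 * Jlen s)) * (1 - 1 / (2 * Jlen s))) := mul_le_mul_of_nonneg_left h4 hk0
      _ = 2 * ((sched.κ (js s) : ℝ) * 2 ^ i * (1 - i / (2 * Jlen s))) *
          (1 - 1 / (2 * Jlen s)) := by ring
      _ ≤ 2 * (sched.κ (js s + i) : ℝ) * (1 - 1 / (2 * Jlen s)) := by
          apply mul_le_mul_of_nonneg_right _ h3
          linarith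

theorem sched_κ_half {s i : ℕ} (h : i ≤ Jlen s) :
    (sched.κ (js s) : ℝ) * 2 ^ i / 2 ≤ sched.κ (js s + i) := by
  refine le_trans ?_ (sched_κ_stretch h)
  have hJ : (0 : ℝ) < Jlen s := by exact_mod_cast Jlen_pos s
  have h1 : (i : ℝ) / (2 * Jlen s) ≤ 1 / 2 := by
    rw [div_le_div_iff₀ (by positivity) (by norm_num)]
    have : (i : ℝ) ≤ Jlen s := by exact_mod_cast h
    linarith
  have hk0 : (0 : ℝ) ≤ (sched.κ (js s) : ℝ) * 2 ^ i := by positivity
  nlinarith

/-- The rate at the start of stretch `s` is at least `10^6 / 2^s`. -/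
theorem sched_κ_js (s : ℕ) : (10 : ℝ) ^ 6 * 2 ^ (js s) ≤ sched.κ (js s) * 2 ^ s := by
  induction s with
  | zero => norm_num [sched_κ_zero]
  | succ s ih =>
    have h1 := sched_κ_half (s := s) (i := Jlen s) le_rfl
    have h2 : (sched.κ (js (s + 1)) : ℝ) = 2 * sched.κ (js s + Jlen s) := by
      rw [js_succ, sched_κ_succ_real, sched_lam_idle]; simp
    rw [h2, js_succ]
    calc (10 : ℝ) ^ 6 * 2 ^ (js s + Jlen s + 1)
        = (10 ^ 6 * 2 ^ js s) * 2 ^ (Jlen s + 1) := by rw [add_assoc, pow_add]; ring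
      _ ≤ ((sched.κ (js s) : ℝ) * 2 ^ s) * 2 ^ (Jlen s + 1) :=
          mul_le_mul_of_nonneg_right ih (by positivity)
      _ = ((sched.κ (js s) : ℝ) * 2 ^ Jlen s / 2) * (2 * 2 ^ (s + 1)) := by ring
      _ ≤ (sched.κ (js s + Jlen s) : ℝ) * (2 * 2 ^ (s + 1)) :=
          mul_le_mul_of_nonneg_right h1 (by positivity)
      _ = 2 * (sched.κ (js s + Jlen s) : ℝ) * 2 ^ (s + 1) := by ring

/-- The rate in stretch `s` is at least `10^6 / 2^(s+1)`. -/
theorem sched_κ_rate {s i : ℕ} (h : i ≤ Jlen s) :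
    (10 : ℝ) ^ 6 * 2 ^ (js s + i) ≤ sched.κ (js s + i) * 2 ^ (s + 1) := by
  have h1 := sched_κ_js s
  have h2 := sched_κ_half h
  calc (10 : ℝ) ^ 6 * 2 ^ (js s + i) = (10 ^ 6 * 2 ^ js s) * 2 ^ i := by rw [pow_add]; ring
    _ ≤ ((sched.κ (js s) : ℝ) * 2 ^ s) * 2 ^ i := mul_le_mul_of_nonneg_right h1 (by positivity)
    _ = ((sched.κ (js s) : ℝ) * 2 ^ i / 2) * 2 ^ (s + 1) := by ring
    _ ≤ _ := mul_le_mul_of_nonneg_right h2 (by positivity)

/-- The rate at all levels up to the end of stretch `s` is at least `10^6 / 2^(s+1)`. -/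
theorem sched_κ_rate' {s j : ℕ} (h : j ≤ js s + Jlen s) :
    (10 : ℝ) ^ 6 * 2 ^ j ≤ sched.κ j * 2 ^ (s + 1) := by
  obtain ⟨r, h1, h2⟩ := exists_stage j
  have hrs : r ≤ s := by
    by_contra hcon
    push Not at hcon
    have h3 : js (s + 1) ≤ js r := js_strictMono.monotone (by omega)
    rw [js_succ] at h3
    omega
  obtain ⟨i, rfl⟩ := Nat.exists_eq_add_of_le h1
  have hi : i ≤ Jlen r := by rw [js_succ] at h2; omega
  calc (10 : ℝ) ^ 6 * 2 ^ (js r + i) ≤ sched.κ (js r + i) * 2 ^ (r + 1) := sched_κ_rate hi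
    _ ≤ _ := by
      apply mul_le_mul_of_nonneg_left _ (Nat.cast_nonneg _)
      exact pow_le_pow_right₀ (by norm_num) (by omega)

/-- The rate `κ j / 2^j`. -/
noncomputable def rate (j : ℕ) : ℝ := sched.κ j / 2 ^ j

theorem rate_nonneg (j : ℕ) : 0 ≤ rate j := by unfold rate; positivity

theorem rate_succ_le (j : ℕ) : rate (j + 1) ≤ rate j := by
  unfold rate
  rw [pow_succ, div_le_div_iff₀ (by positivity) (by positivity)]
  have := sched_κ_succ_le j
  have h2 : (0 : ℝ) < 2 ^ j := by positivity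
  nlinarith

theorem rate_antitone : Antitone rate := antitone_nat_of_succ_le rate_succ_le

theorem rate_stretch_step {s i : ℕ} (h : i < Jlen s) :
    rate (js s + (i + 1)) ≤ rate (js s + i) * (1 - 1 / (2 * Jlen s)) + 1 / 2 ^ (js s + i + 1) := by
  have hJ : (0 : ℝ) < Jlen s := by exact_mod_cast Jlen_pos s
  unfold rate
  have h1 : (sched.κ (js s + (i + 1)) : ℝ) = 2 * sched.κ (js s + i) - sched.lam (js s + i) :=
    sched_κ_succ_real (js s + i)
  have h2 : (sched.κ (js s + i) : ℝ) / Jlen s - 1 ≤ sched.lam (js s + i) := by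
    rw [sched_lam_stretch h]
    have := Nat.lt_floor_add_one ((sched.κ (js s + i) : ℝ) / Jlen s)
    rw [Nat.floor_div_natCast, Nat.floor_natCast] at this
    linarith
  rw [h1, ← add_assoc, pow_succ (2 : ℝ) (js s + i)]
  have hp : (0 : ℝ) < 2 ^ (js s + i) := by positivity
  rw [div_le_iff₀ (by positivity)]
  have e : ((sched.κ (js s + i) : ℝ) / 2 ^ (js s + i) * (1 - 1 / (2 * Jlen s)) +
      1 / (2 ^ (js s + i) * 2)) * (2 ^ (js s + i) * 2) =
      2 * sched.κ (js s + i) - sched.κ (js s + i) / Jlen s + 1 := by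
    field_simp
  rw [e]
  linarith

theorem rate_stretch {s i : ℕ} (h : i ≤ Jlen s) :
    rate (js s + i) ≤ rate (js s) * (1 - 1 / (2 * Jlen s)) ^ i + (1 - 1 / 2 ^ i) / 2 ^ js s := by
  have hJ : (0 : ℝ) < Jlen s := by exact_mod_cast Jlen_pos s
  have hJ1 : (1 : ℝ) ≤ Jlen s := by exact_mod_cast Jlen_pos s
  have h3 : (0 : ℝ) ≤ 1 - 1 / (2 * Jlen s) := by
    rw [sub_nonneg, div_le_one (by positivity)]
    linarith
  have h3' : (1 : ℝ) - 1 / (2 * Jlen s) ≤ 1 := by
    have : (0 : ℝ) ≤ 1 / (2 * Jlen s) := by positivity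
    linarith
  induction i with
  | zero => simp
  | succ i ih =>
    have ih := ih (by omega)
    have hpow : (1 : ℝ) / 2 ^ i ≤ 1 := by
      rw [div_le_one (by positivity)]
      exact one_le_pow₀ (by norm_num)
    calc rate (js s + (i + 1))
        ≤ rate (js s + i) * (1 - 1 / (2 * Jlen s)) + 1 / 2 ^ (js s + i + 1) :=
          rate_stretch_step (by omega)
      _ ≤ (rate (js s) * (1 - 1 / (2 * Jlen s)) ^ i + (1 - 1 / 2 ^ i) / 2 ^ js s) *
            (1 - 1 / (2 * Jlen s)) + 1 / 2 ^ (js s + i + 1) := by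
          have := mul_le_mul_of_nonneg_right ih h3
          linarith
      _ ≤ rate (js s) * (1 - 1 / (2 * Jlen s)) ^ (i + 1) + (1 - 1 / 2 ^ i) / 2 ^ js s +
            1 / 2 ^ (js s + i + 1) := by
          have h5 : (0 : ℝ) ≤ (1 - 1 / 2 ^ i) / 2 ^ js s :=
            div_nonneg (by linarith) (by positivity)
          have h6 := mul_le_mul_of_nonneg_left h3' h5
          rw [pow_succ (1 - 1 / (2 * (Jlen s : ℝ))) i]
          rw [mul_one] at h6
          rw [add_mul]
          linarith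
      _ = _ := by
          rw [show js s + i + 1 = js s + (i + 1) by ring, pow_add (2 : ℝ) (js s) (i + 1),
            pow_succ (2 : ℝ) i]
          field_simp
          ring

theorem rate_js_succ (s : ℕ) : rate (js (s + 1)) ≤ rate (js s) * (2 / 3) + 1 / 2 ^ s := by
  have h1 := rate_stretch (s := s) (i := Jlen s) le_rfl
  have hJ : (0 : ℝ) < Jlen s := by exact_mod_cast Jlen_pos s
  have h2 : (1 - 1 / (2 * (Jlen s : ℝ))) ^ Jlen s ≤ 2 / 3 := by
    have h3 : (1 - 1 / (2 * (Jlen s : ℝ))) ≤ Real.exp (-(1 / (2 * (Jlen s : ℝ)))) := by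
      have := Real.add_one_le_exp (-(1 / (2 * (Jlen s : ℝ))))
      linarith
    have hJ1 : (1 : ℝ) ≤ Jlen s := by exact_mod_cast Jlen_pos s
    have h4 : (0 : ℝ) ≤ 1 - 1 / (2 * Jlen s) := by
      rw [sub_nonneg, div_le_one (by positivity)]
      linarith
    calc (1 - 1 / (2 * (Jlen s : ℝ))) ^ Jlen s ≤ (Real.exp (-(1 / (2 * (Jlen s : ℝ))))) ^ Jlen s :=
          pow_le_pow_left₀ h4 h3 _
      _ = Real.exp (-(1 / 2)) := by
          rw [← Real.exp_nat_mul]
          congr 1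
          field_simp
      _ ≤ 2 / 3 := by
          rw [Real.exp_neg, inv_le_comm₀ (Real.exp_pos _) (by norm_num)]
          have := Real.add_one_le_exp (1 / 2 : ℝ)
          norm_num at this ⊢
          linarith
  have h5 : rate (js (s + 1)) ≤ rate (js s + Jlen s) := rate_antitone (by rw [js_succ]; omega)
  have h6 : (1 - 1 / (2 : ℝ) ^ Jlen s) / 2 ^ js s ≤ 1 / 2 ^ s := by
    apply div_le_div₀ (by norm_num) _ (by positivity)
      (pow_le_pow_right₀ (by norm_num) (le_js s))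
    have : (0 : ℝ) ≤ 1 / 2 ^ Jlen s := by positivity
    linarith
  have h7 := mul_le_mul_of_nonneg_left h2 (rate_nonneg (js s))
  linarith

theorem rate_js_le (s : ℕ) : rate (js s) ≤ 10 ^ 6 * (3 / 4) ^ s := by
  induction s with
  | zero => norm_num [rate, sched_κ_zero]
  | succ s ih =>
    have h := rate_js_succ s
    have h1 : (1 : ℝ) / 2 ^ s ≤ (3 / 4) ^ s := by
      rw [one_div, ← inv_pow]
      exact pow_le_pow_left₀ (by norm_num) (by norm_num) s
    rw [pow_succ (3 / 4 : ℝ) s]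
    have h2 : (0 : ℝ) ≤ (3 / 4) ^ s := by positivity
    linarith

theorem tendsto_rate : Filter.Tendsto rate Filter.atTop (nhds 0) := by
  have h1 : Filter.Tendsto (fun s => rate (js s)) Filter.atTop (nhds 0) := by
    have h2 : Filter.Tendsto (fun s : ℕ => (10 : ℝ) ^ 6 * (3 / 4) ^ s) Filter.atTop (nhds 0) := by
      have := (tendsto_pow_atTop_nhds_zero_of_lt_one (r := (3 / 4 : ℝ)) (by norm_num)
        (by norm_num)).const_mul ((10 : ℝ) ^ 6)
      simpa using this
    exact squeeze_zero (fun s => rate_nonneg _) rate_js_le h2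
  have h3 := tendsto_atTop_ciInf rate_antitone ⟨0, by rintro _ ⟨j, rfl⟩; exact rate_nonneg j⟩
  have h4 := h3.comp js_strictMono.tendsto_atTop
  have := tendsto_nhds_unique h4 h1
  rwa [this] at h3

theorem tendsto_κ_div : Filter.Tendsto (fun j => (sched.κ j : ℝ) / 2 ^ j) Filter.atTop (nhds 0) :=
  tendsto_rate

/-- infinitely many idle levels -/
theorem exists_idle (j0 : ℕ) : ∃ j ≥ j0, sched.lam j = 0 :=
  ⟨js j0 + Jlen j0, by have := le_js j0; omega, sched_lam_idle j0⟩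

/-- At an idle level all pairs are admissible. -/
theorem gRel_of_idle {j : ℕ} (h : sched.lam j = 0) (Ψ : sched.Rel j) (w w' : sched.W j) :
    sched.GRel j Ψ w w' := by
  have hs : Subsingleton (sched.Y j) := by
    unfold Sched.Y
    rw [h, pow_zero]
    exact inferInstance
  exact Subsingleton.elim _ _

theorem tower_full (t : sched.Rels) (j0 : ℕ) :
    ∃ j ≥ j0, ∀ w w', (sched.tower t).G j w w' := by
  obtain ⟨j, hj, h⟩ := exists_idle j0
  exact ⟨j, hj, fun w w' => gRel_of_idle h _ _ _⟩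

theorem eta_ge (s : Sched) (j : ℕ) : 1 / 200 ≤ s.eta j := by
  induction j with
  | zero => exact le_rfl
  | succ j ih =>
    simp only [Sched.eta]
    have : (0 : ℝ) ≤ ((j : ℝ) + 3) / (2 * s.κ j) := by positivity
    linarith

theorem eta_le_aux (j : ℕ) : sched.eta j ≤ 1 / 200 + 1 / 200 * (1 - (2 / 3) ^ j) := by
  induction j with
  | zero => simp [Sched.eta]
  | succ j ih =>
    simp only [Sched.eta]
    have hk := sched_κ_ge j
    have hb := one_add_mul_le_pow (a := (4 / 15 : ℝ)) (by norm_num) j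
    have h1 : ((j : ℝ) + 3) / (2 * sched.κ j) ≤ 1 / 600 * (2 / 3) ^ j := by
      have hpos : (0 : ℝ) < sched.κ j := by exact_mod_cast sched_κ_pos j
      rw [div_le_iff₀ (by positivity)]
      have e1 : (19 / 10 : ℝ) ^ j = (3 / 2) ^ j * (1 + 4 / 15) ^ j := by
        rw [← mul_pow]; norm_num
      have e2 : ((2 : ℝ) / 3) ^ j * (3 / 2) ^ j = 1 := by rw [← mul_pow]; norm_num
      calc (j : ℝ) + 3 ≤ 1 / 300 * (10 ^ 6 * (1 + j * (4 / 15))) := by
            have : (0 : ℝ) ≤ j := Nat.cast_nonneg j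
            nlinarith
        _ ≤ 1 / 300 * (10 ^ 6 * (1 + 4 / 15) ^ j) := by
            apply mul_le_mul_of_nonneg_left _ (by norm_num)
            exact mul_le_mul_of_nonneg_left hb (by norm_num)
        _ = 1 / 300 * ((((2 : ℝ) / 3) ^ j * (3 / 2) ^ j) * (10 ^ 6 * (1 + 4 / 15) ^ j)) := by
            rw [e2, one_mul]
        _ = 1 / 300 * (2 / 3) ^ j * (10 ^ 6 * (19 / 10) ^ j) := by rw [e1]; ring
        _ ≤ 1 / 300 * (2 / 3) ^ j * sched.κ j := mul_le_mul_of_nonneg_left hk (by positivity)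
        _ = 1 / 600 * (2 / 3) ^ j * (2 * sched.κ j) := by ring
    rw [pow_succ]
    nlinarith

theorem eta_le (j : ℕ) : sched.eta j ≤ 1 / 100 := by
  have := eta_le_aux j
  have h2 : (0 : ℝ) ≤ (2 / 3) ^ j := by positivity
  linarith

theorem list_numeric (j : ℕ) : (sched.κ 0 : ℝ) * 2 ^ (j + 1) + j + 2 ≤
      (2 : ℝ) ^ ((sched.κ (j + 1) : ℝ) * sched.eta (j + 1) - sched.lam j - 1) := by
  have hk := sched_κ_ge_linear j
  have h1 : ((j : ℝ) + 22) ≤ (sched.κ (j + 1) : ℝ) * sched.eta (j + 1) - sched.lam j - 1 := by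
    have h2 : (sched.κ (j + 1) : ℝ) * (1 / 200) ≤ sched.κ (j + 1) * sched.eta (j + 1) :=
      mul_le_mul_of_nonneg_left (eta_ge sched (j + 1)) (Nat.cast_nonneg _)
    have h3 := sched_κ_succ_real j
    have h4 := sched_lam_le_real j
    have h5 : (0 : ℝ) ≤ j := Nat.cast_nonneg j
    nlinarith
  refine le_trans ?_ (Real.rpow_le_rpow_of_exponent_le (by norm_num) h1)
  rw [sched_κ_zero]
  have e : (2 : ℝ) ^ ((j : ℝ) + 22) = 2 ^ (j + 22) := by
    have : ((j : ℝ) + 22) = ((j + 22 : ℕ) : ℝ) := by push_cast; ring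
    rw [this, Real.rpow_natCast]
  rw [e]
  have h6 : ((j : ℝ) + 2) ≤ 2 ^ (j + 1) := by
    have : j + 1 < 2 ^ (j + 1) := Nat.lt_two_pow_self
    have h7 : j + 2 ≤ 2 ^ (j + 1) := this
    exact_mod_cast h7
  have h8 : (2 : ℝ) ^ (j + 22) = 2 ^ 21 * 2 ^ (j + 1) := by rw [← pow_add]; congr 1; ring
  rw [h8]
  push_cast
  have h9 : (0 : ℝ) < 2 ^ (j + 1) := by positivity
  nlinarith

/-- **Final theorem of block [C].** -/
theorem exists_rels (th : ℕ → ℝ) (hth : ∀ j, 0 < th j)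
    (𝓕 : ∀ j, sched.Rels → Finset (sched.W j → sched.W j → ℝ))
    (hdep : ∀ j t t', (∀ i < j, t i = t' i) → 𝓕 j t = 𝓕 j t')
    (hcard : ∀ j t, ((𝓕 j t).card : ℝ) ≤ Real.exp (4 / ((2 ^ sched.lam j) ^ 2 * th j) - 1)) :
    ∃ t : sched.Rels, (∀ j, ∀ Λ ∈ 𝓕 j t, (∀ w w', 0 ≤ Λ w w') → (∀ w w', Λ w w' ≤ th j) →
        ∑ w, ∑ w', Λ w w' ≤ 2 → ∑ p ∈ sched.G j (t j), Λ p.1 p.2 ≤ 8 / 2 ^ sched.lam j) ∧
      (∀ j, Sched.ListProp t j (1 / 100)) ∧ (∀ j, Function.Injective (Sched.spell t j)) := by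
  obtain ⟨t, h1, h2⟩ := Sched.exists_rels_aux sched th hth sched_κ_pos list_numeric 𝓕 hdep hcard
  exact ⟨t, h1, fun j => Sched.listProp_mono (eta_le j) (h2 j), fun j => Sched.spell_injective t j⟩

/-- The exponent of the union bound for `th j = 2^(-1.9 κ j)`. -/
theorem two_rpow_le_exponent (j : ℕ) :
    (2 : ℝ) ^ ((3 / 2 : ℝ) * sched.κ j) ≤
      4 / ((2 ^ sched.lam j) ^ 2 * (2 : ℝ) ^ (-(19 / 10 : ℝ) * sched.κ j)) - 1 := by
  have h1 := sched_lam_le_real j
  have hk0 : (0 : ℝ) ≤ sched.κ j := Nat.cast_nonneg _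
  have e : ((2 : ℝ) ^ sched.lam j) ^ 2 * (2 : ℝ) ^ (-(19 / 10 : ℝ) * sched.κ j) =
      (2 : ℝ) ^ (2 * (sched.lam j : ℝ) - 19 / 10 * sched.κ j) := by
    rw [← pow_mul, ← Real.rpow_natCast, ← Real.rpow_add (by norm_num)]
    congr 1
    push_cast; ring
  rw [e]
  have h2 : (4 : ℝ) / (2 : ℝ) ^ (2 * (sched.lam j : ℝ) - 19 / 10 * sched.κ j) =
      4 * (2 : ℝ) ^ (19 / 10 * sched.κ j - 2 * (sched.lam j : ℝ)) := by
    rw [div_eq_mul_inv, ← Real.rpow_neg (by norm_num)]
    congr 2; ring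
  rw [h2]
  have h3 : (2 : ℝ) ^ ((3 / 2 : ℝ) * sched.κ j) ≤
      (2 : ℝ) ^ (19 / 10 * sched.κ j - 2 * (sched.lam j : ℝ)) := by
    apply Real.rpow_le_rpow_of_exponent_le (by norm_num)
    linarith
  have h4 : (1 : ℝ) ≤ (2 : ℝ) ^ ((3 / 2 : ℝ) * sched.κ j) :=
    Real.one_le_rpow (by norm_num) (by positivity)
  linarith

end Vale.Agent.P109.H462
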